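import Crest.Agent.X212.Rob53.Mtp_Mg

/-!
# Row 212, GEO engine, leaves M-TP and M-U (helper53) for the final marks
-/

set_option autoImplicit false
noncomputable section

namespace Crest.Agent.X212.Rob53.Mu
open Sw Sw87.Mo

theorem re_of {X : Geo28.M4} {n : ℕ} (b : Bg X.I X.M κ0 L0 ν0 n) {x : ℚ}
    (h1 : Dr59.HZ X.I 1 (Set.univ : Set X.M)) (h : Mb.Dgr b x) : Bg.Re (X := X.X) b x := ⟨h1, h⟩

variable (e₀ : En3 κ0 L0 ν0)

/-- **M-TP** -/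
theorem mtpStmt : MtpStmt (Top0.mk0 e₀) := by
  intro X τ k β c d x ens C h hd hx
  obtain ⟨i, j, h1, h2, h3, h4⟩ := Mb.tp_of c h hd hx
  change Ix82.Tp (c.gc ens C) _
  exact ⟨i, j, h1, h2, h.p3, h3 i (.inl rfl), h3 j (.inr rfl), (0 : Flo2.Tk k), x, re_of _ h.h1 h4, rfl⟩

/-- **M-U** -/
theorem muStmt (hK : Rad94.KerCStmt κ0 L0 ν0) (hH : Rad94.HdgStmt κ0 L0 ν0) : MuStmt (Top0.mk0 e₀) :=
  mu_of hK hH (mtpStmt e₀) (fun _ h c => Sm10.Mh.smp_of (h c)) (fun _ h => h) (fun _ h => h)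
    fun _ h c => (h c).2

end Crest.Agent.X212.Rob53.Mu
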