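import Crest.Agent.X212.Rob53.Fix
import Crest.Agent.X212.Nvg56.Cn
import Crest.Agent.X212.Geo28.Lv

-- ▼ part X212/Rob53/Psh
section

/-!
# X212 / Rob53, part Psh (helper53): moves along a product end

* `pe φ g` : the map `(y, t) ↦ (y, g t)` of a collar, extended by the identity;
* `mv_col` : it is a move;  `mv_tiso`, `mv_out`, `mv_in` : ends of a timed piece;
* `push_out`, `push_in` : translation of an end;  `Mv.dif` : the positive diffeomorphism of a `W4`.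
-/

set_option autoImplicit false
set_option linter.unusedSectionVars false

open Set Filter Topology Function Metric Module
open scoped ContDiff Manifold
open Crest.Agent.X212.Orx52 Crest.Agent.X212.Dr59
open Crest.Agent.X212.Lab56 (Dfm)
open Crest.Agent.X212.Bor5.T (O3 W4)
open Crest.Agent.X212.Cyl58 (TP TIso)

noncomputable section

namespace Crest.Agent.X212.Rob53

section col

variable {E : Type} [NormedAddCommGroup E] [NormedSpace ℝ E] [FiniteDimensional ℝ E]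
  {H : Type} [TopologicalSpace H] {I : ModelWithCorners ℝ E H} [I.Boundaryless]
  {M : Type} [TopologicalSpace M] [ChartedSpace H M] [IsManifold I ∞ M]
  {E' : Type} [NormedAddCommGroup E'] [NormedSpace ℝ E'] [FiniteDimensional ℝ E']
  {H' : Type} [TopologicalSpace H'] {K : ModelWithCorners ℝ E' H'} [K.Boundaryless]
  {Y : Type} [TopologicalSpace Y] [ChartedSpace H' Y] [IsManifold K ∞ Y]
  (φ : PartialDiffeomorph (K.prod 𝓘(ℝ, ℝ)) I (Y × ℝ) M ∞) {J T T' : Set ℝ} {g g' : ℝ → ℝ} {x : M}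

open Classical in
/-- a change of the collar coordinate -/
def pe (g : ℝ → ℝ) (x : M) : M := if x ∈ φ.target then φ ((φ.symm x).1, g (φ.symm x).2) else x

theorem pe_tgt (hx : x ∈ φ.target) : pe φ g x = φ ((φ.symm x).1, g (φ.symm x).2) := if_pos hx

theorem pe_not (hx : x ∉ φ.target) : pe φ g x = x := if_neg hx

theorem pe_src {z : Y × ℝ} (hz : z ∈ φ.source) : pe φ g (φ z) = φ (z.1, g z.2) :=
  (pe_tgt φ (φ.map_source hz)).trans (congrArg (fun w : Y × ℝ => φ (w.1, g w.2)) (φ.left_inv hz))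

theorem pe_fix (h : x ∈ φ.target → g (φ.symm x).2 = (φ.symm x).2) : pe φ g x = x := by
  by_cases k : x ∈ φ.target
  · exact (pe_tgt φ k).trans ((congrArg (fun t => φ ((φ.symm x).1, t)) (h k)).trans (φ.right_inv k))
  · exact pe_not φ k

variable {φ} (hs : φ.source = Prod.snd ⁻¹' J)
include hs

theorem mem_J (hx : x ∈ φ.target) : (φ.symm x).2 ∈ J := hs.le (φ.map_target hx)

theorem pe_off (h : ∀ u, u ∉ T → g u = u) (hx : x ∉ φ '' (Prod.snd ⁻¹' T)) : pe φ g x = x :=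
  pe_fix φ fun k => h _ fun e => hx ⟨_, e, φ.right_inv k⟩

theorem pe_pe (hm : MapsTo g J J) (l : ∀ u, g' (g u) = u) (x : M) : pe φ g' (pe φ g x) = x := by
  by_cases k : x ∈ φ.target
  · exact (congrArg _ (pe_tgt φ k)).trans ((pe_src φ (hs.ge (hm (mem_J hs k)))).trans
      ((congrArg (fun t => φ ((φ.symm x).1, t)) (l _)).trans (φ.right_inv k)))
  · rw [pe_not φ k, pe_not φ k]

theorem sub_tgt (hT : T ⊆ J) : φ '' (Prod.snd ⁻¹' T) ⊆ φ.target := by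
  rintro _ ⟨z, hz, rfl⟩
  exact φ.map_source (hs.ge (hT hz))

theorem cm_pe (hg : ContDiff ℝ ∞ g) (hm : MapsTo g J J) (h : ∀ u, u ∉ T → g u = u) (hT : T ⊆ J)
    (hc : IsClosed (φ '' (Prod.snd ⁻¹' T))) : ContMDiff I I ∞ (pe φ g) := fun x => by
  by_cases k : x ∈ φ.target
  · have l := (ldp φ.symm k).contMDiffAt
    exact ((ldp φ (hs.ge (hm (mem_J hs k)))).contMDiffAt.comp x ((contMDiffAt_fst.comp x l).prodMk
      (hg.contDiffAt.comp_contMDiffAt (contMDiffAt_snd.comp x l)))).congr_of_eventuallyEq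
      (eventually_of_mem (φ.open_target.mem_nhds k) fun _ => pe_tgt φ)
  · exact contMDiffAt_id.congr_of_eventuallyEq (eventually_of_mem
      (hc.isOpen_compl.mem_nhds fun e => k (sub_tgt hs hT e)) fun _ => pe_off hs h)

/-- the manifold deforms off the part `T` of the collar -/
theorem dfm_col (hJ : OrdConnected J) {ρ : ℝ → ℝ} (cρ : Continuous ρ) (h1 : ∀ u ∈ J, ρ u ∈ J ∧ ρ u ∉ T)
    (h2 : ∀ u, u ∉ T' → ρ u = u) (hT : T ⊆ J) (hT' : T' ⊆ J) (hc : IsClosed (φ '' (Prod.snd ⁻¹' T'))) :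
    Dfm (univ : Set M) (φ '' (Prod.snd ⁻¹' T))ᶜ := by
  refine ⟨fun z => pe φ (fun u => (1 - z.1) * ρ u + z.1 * u) z.2, fun z hz => ContinuousAt.continuousWithinAt ?_,
    fun _ _ _ _ => trivial, fun x _ => ?_, fun x _ => pe_fix φ fun _ => by simp⟩
  · by_cases k : z.2 ∈ φ.target
    · have l : ContinuousAt (fun w : ℝ × M => φ.symm w.2) z :=
        (ldp φ.symm k).contMDiffAt.continuousAt.comp continuousAt_snd
      refine ((ldp φ (y := ((φ.symm z.2).1, (1 - z.1) * ρ (φ.symm z.2).2 + z.1 * (φ.symm z.2).2))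
        (hs.ge (hJ.convex (h1 _ (mem_J hs k)).1 (mem_J hs k) (sub_nonneg.2 hz.1.2) hz.1.1
          (sub_add_cancel _ _)))).contMDiffAt.continuousAt.comp (f := fun w : ℝ × M =>
          ((φ.symm w.2).1, (1 - w.1) * ρ (φ.symm w.2).2 + w.1 * (φ.symm w.2).2)) (l.fst.prodMk
          (((continuousAt_const.sub continuousAt_fst).mul (cρ.continuousAt.comp l.snd)).add
            (continuousAt_fst.mul l.snd)))).congr ?_
      filter_upwards [(φ.open_target.preimage continuous_snd).mem_nhds k] with w hw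
      exact (pe_tgt φ (g := fun u => (1 - w.1) * ρ u + w.1 * u) hw).symm
    · refine continuousAt_snd.congr ?_
      filter_upwards [(hc.isOpen_compl.preimage continuous_snd).mem_nhds fun e => k (sub_tgt hs hT' e)] with w hw
      exact (pe_off hs (fun u hu => by rw [h2 u hu]; ring) hw).symm
  · beta_reduce
    by_cases k : x ∈ φ.target
    · rintro ⟨z, hz, e⟩
      have j := h1 _ (mem_J hs k)
      rw [pe_tgt φ k, sub_zero, one_mul, zero_mul, add_zero] at e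
      obtain rfl := φ.injOn (hs.ge (hT hz)) (hs.ge j.1) e
      exact j.2 hz
    · rw [pe_not φ k]
      exact fun e => k (sub_tgt hs hT e)

/-- **a change of the collar coordinate is a move** -/
theorem mv_col [T2Space M] [SigmaCompactSpace M] [ConnectedSpace Y] (hJ : OrdConnected J) (hT : T ⊆ J)
    (hc : IsClosed (φ '' (Prod.snd ⁻¹' T))) {p : ℝ} (hp : p ∈ J) (hp' : p ∉ T)
    (hd : Dfm (univ : Set M) (φ '' (Prod.snd ⁻¹' T))ᶜ) (σ : ℝ ≃ₘ^∞⟮𝓘(ℝ, ℝ), 𝓘(ℝ, ℝ)⟯ ℝ)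
    (h : ∀ u, u ∉ T → σ u = u) :
    ∃ ψ, Mv I (φ '' (Prod.snd ⁻¹' T)) ψ ∧ ∀ y, ∀ t ∈ J, ψ (φ (y, t)) = φ (y, σ t) := by
  have h' : ∀ u, u ∉ T → σ.symm u = u := fun u k => σ.injective ((σ.apply_symm_apply u).trans (h u k).symm)
  have m : ∀ {f : ℝ → ℝ}, Injective f → (∀ u, u ∉ T → f u = u) → MapsTo f J J := fun {f} a b u hu =>
    (em (f u ∈ T)).elim (hT ·) fun k => (a (b _ k)).symm ▸ hu
  have m0 := m σ.injective h
  have m1 := m σ.symm.injective h'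
  obtain ⟨y₀⟩ : Nonempty Y := inferInstance
  refine ⟨Glue52.diffeoOf (pe φ σ) (pe φ σ.symm) (cm_pe hs σ.contDiff m0 h hT hc)
    (cm_pe hs σ.symm.contDiff m1 h' hT hc) (pe_pe hs m0 σ.symm_apply_apply) (pe_pe hs m1 σ.apply_symm_apply),
    mv_of_ht φ.open_target ?_ hc (sub_tgt hs hT) (φ.map_source (x := (y₀, p)) (hs.ge hp))
      (fun ⟨z, hz, e⟩ => hp' (by obtain rfl := φ.injOn (hs.ge (hT hz)) (hs.ge hp) e; exact hz))
      (F := fun z => φ ((φ.symm z.1).1, (1 - z.2) * (φ.symm z.1).2 + z.2 * σ (φ.symm z.1).2))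
      ⟨fun x k t ht => ?_, fun _ _ _ _ => trivial⟩ (fun x k => ?_) (fun x k => ?_) (fun x k hx t => ?_)
      (fun _ => pe_off hs h) fun a b => hd.eqv isOpen_univ (subset_univ _) a.ok b.ok,
    fun y t ht => pe_src φ (z := (y, t)) (hs.ge ht)⟩
  · rw [← φ.image_source_eq_target]
    refine IsPreconnected.image ?_ _ φ.contMDiffOn_toFun.continuousOn
    rw [hs, ← univ_prod]
    exact isPreconnected_univ.prod hJ.isPreconnected
  · have l : ContMDiffAt (I.prod 𝓘(ℝ, ℝ)) (K.prod 𝓘(ℝ, ℝ)) ∞ (fun z : M × ℝ => φ.symm z.1) (x, t) :=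
      (ldp φ.symm k).contMDiffAt.comp (x, t) contMDiffAt_fst
    have l2 := contMDiffAt_snd.comp (x, t) l
    exact (ldp φ (y := ((φ.symm x).1, (1 - t) * (φ.symm x).2 + t * σ (φ.symm x).2))
      (hs.ge (hJ.convex (mem_J hs k) (m0 (mem_J hs k)) (sub_nonneg.2 ht.2) ht.1
        (sub_add_cancel _ _)))).contMDiffAt.comp (x, t) ((contMDiffAt_fst.comp (x, t) l).prodMk
        (((contMDiffAt_const.sub contMDiffAt_snd).mul l2).add
          (contMDiffAt_snd.mul ((σ.contMDiff _).comp (x, t) l2))))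
  · simp only [sub_zero, one_mul, zero_mul, add_zero]
    exact φ.right_inv k
  · simp only [sub_self, one_mul, zero_mul, zero_add]
    exact (pe_tgt φ k).symm
  · simp only [h (φ.symm x).2 fun e => hx ⟨_, e, φ.right_inv k⟩, ← add_mul, sub_add_cancel, one_mul]
    exact φ.right_inv k

end col

section tiso

variable {V : Type} [NormedAddCommGroup V] [NormedSpace ℝ V] [FiniteDimensional ℝ V] {X : TP V} {B : O3}
  {J T T' : Set ℝ} {a b a₀ δ : ℝ}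

theorem img_tiso (k : TIso B.cyl X J) (h : T ⊆ J) : k.φ '' (Prod.snd ⁻¹' T) = X.τ ⁻¹' T := by
  refine Subset.antisymm ?_ fun x hx => ?_
  · rintro _ ⟨z, hz, rfl⟩
    exact show X.τ (k z) ∈ T from (k.tm z (h hz)).symm ▸ hz
  · obtain ⟨z, a, b⟩ := k.surj (h hx)
    exact ⟨z, show B.cyl.τ z ∈ T from a.symm ▸ hx, b⟩

theorem mv_tiso (k : TIso B.cyl X J) (hJ : OrdConnected J) (hT : T ⊆ J) (cT : IsClosed T) (hT' : T' ⊆ J)
    (cT' : IsClosed T') {p : ℝ} (hp : p ∈ J) {ρ : ℝ → ℝ} (cρ : Continuous ρ) (h1 : ∀ u ∈ J, ρ u ∈ J ∧ ρ u ∉ T)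
    (h2 : ∀ u, u ∉ T' → ρ u = u) (σ : ℝ ≃ₘ^∞⟮𝓘(ℝ, ℝ), 𝓘(ℝ, ℝ)⟯ ℝ) (h : ∀ u, u ∉ T → σ u = u) :
    ∃ ψ, Mv X.P.I (X.τ ⁻¹' T) ψ ∧ (∀ y, ∀ t ∈ J, ψ (k (y, t)) = k (y, σ t)) ∧ ∀ x, X.τ (ψ x) = σ (X.τ x) := by
  have := Manifold.locallyCompact_of_finiteDimensional (M := X.P.M) X.P.I
  obtain ⟨ψ, h3, h4⟩ := mv_col (φ := k.φ) k.src hJ hT (img_tiso k hT ▸ cT.preimage X.cont) (h1 p hp).1 (h1 p hp).2
    (dfm_col k.src hJ cρ h1 h2 hT hT' (img_tiso k hT' ▸ cT'.preimage X.cont)) σ h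
  replace h3 := h3.mono (img_tiso k hT).le
  refine ⟨ψ, h3, h4, fun x => ?_⟩
  by_cases e : X.τ x ∈ T
  · obtain ⟨⟨y, t⟩, j, rfl⟩ := k.surj (hT e)
    have m : t ∈ J := (show t = _ from j) ▸ hT e
    rw [h4 y t m, ← j]
    exact k.tm (y, σ t) ((em (σ t ∈ T)).elim (hT ·) fun l => (σ.injective (h _ l)).symm ▸ m)
  · rw [h3.off x e, h _ e]

/-- an outgoing end -/
theorem mv_out (k : TIso B.cyl X (Ioi b)) (h0 : b < a₀) (σ : ℝ ≃ₘ^∞⟮𝓘(ℝ, ℝ), 𝓘(ℝ, ℝ)⟯ ℝ)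
    (h : ∀ u < a₀, σ u = u) : ∃ ψ, Mv X.P.I (X.τ ⁻¹' Ici a₀) ψ ∧ (∀ y t, b < t → ψ (k (y, t)) = k (y, σ t)) ∧
      ∀ x, X.τ (ψ x) = σ (X.τ x) :=
  let ⟨c, c1, c2⟩ := exists_between h0
  mv_tiso k ordConnected_Ioi (Ici_subset_Ioi.2 h0) isClosed_Ici (Ici_subset_Ioi.2 c1) isClosed_Ici h0
    (ρ := (min · c)) (by fun_prop) (fun _ hu => ⟨lt_min hu c1, fun e => ((min_le_right _ _).trans_lt c2).not_ge e⟩)
    (fun _ hu => min_eq_left (not_le.1 hu).le) σ fun u hu => h u (not_le.1 hu)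

/-- an incoming end -/
theorem mv_in (k : TIso B.cyl X (Iio a)) (h0 : a₀ < a) (σ : ℝ ≃ₘ^∞⟮𝓘(ℝ, ℝ), 𝓘(ℝ, ℝ)⟯ ℝ)
    (h : ∀ u, a₀ < u → σ u = u) : ∃ ψ, Mv X.P.I (X.τ ⁻¹' Iic a₀) ψ ∧ (∀ y t, t < a → ψ (k (y, t)) = k (y, σ t)) ∧
      ∀ x, X.τ (ψ x) = σ (X.τ x) :=
  let ⟨c, c1, c2⟩ := exists_between h0
  mv_tiso k ordConnected_Iio (Iic_subset_Iio.2 h0) isClosed_Iic (Iic_subset_Iio.2 c2) isClosed_Iic h0
    (ρ := (max · c)) (by fun_prop) (fun _ hu => ⟨max_lt hu c2, fun e => (c1.trans_le (le_max_right _ _)).not_ge e⟩)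
    (fun _ hu => max_eq_left (not_le.1 hu).le) σ fun u hu => h u (not_le.1 hu)

/-- **END-PUSH**, outgoing -/
theorem push_out (k : TIso B.cyl X (Ioi b)) (h0 : b < a₀) (h1 : a₀ < a) (h2 : a₀ < a + δ) :
    ∃ ψ, Mv X.P.I (X.τ ⁻¹' Ici a₀) ψ ∧ (∀ y t, a ≤ t → ψ (k (y, t)) = k (y, t + δ)) ∧
      ∃ σ : ℝ ≃ₘ^∞⟮𝓘(ℝ, ℝ), 𝓘(ℝ, ℝ)⟯ ℝ, Cyl58.Up σ univ ∧ (∀ u ≤ a₀, σ u = u) ∧ (∀ u, a ≤ u → σ u = u + δ) ∧
        (∀ y t, b < t → ψ (k (y, t)) = k (y, σ t)) ∧ ∀ x, X.τ (ψ x) = σ (X.τ x) := by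
  obtain ⟨σ, s1, s2, s3⟩ := Cyl58.exists_diffeo_shift (c := 0) (d := δ) h1 (by rwa [add_zero])
  simp only [add_zero] at s2
  obtain ⟨ψ, p1, p2, p3⟩ := mv_out k h0 σ fun u hu => s2 u hu.le
  exact ⟨ψ, p1, fun y t ht => by rw [p2 y t (by linarith), s3 t ht], σ, s1, s2, s3, p2, p3⟩

/-- **END-PUSH**, incoming -/
theorem push_in (k : TIso B.cyl X (Iio a)) (h0 : a₀ < a) (h1 : b < a₀) (h2 : b + δ < a₀) :
    ∃ ψ, Mv X.P.I (X.τ ⁻¹' Iic a₀) ψ ∧ (∀ y t, t ≤ b → ψ (k (y, t)) = k (y, t + δ)) ∧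
      ∃ σ : ℝ ≃ₘ^∞⟮𝓘(ℝ, ℝ), 𝓘(ℝ, ℝ)⟯ ℝ, Cyl58.Up σ univ ∧ (∀ u, a₀ ≤ u → σ u = u) ∧ (∀ u ≤ b, σ u = u + δ) ∧
        (∀ y t, t < a → ψ (k (y, t)) = k (y, σ t)) ∧ ∀ x, X.τ (ψ x) = σ (X.τ x) := by
  obtain ⟨σ, s1, s2, s3⟩ := Cyl58.exists_diffeo_shift (c := δ) (d := 0) h1 (by rwa [add_zero])
  simp only [add_zero] at s3
  obtain ⟨ψ, p1, p2, p3⟩ := mv_in k h0 σ fun u hu => s3 u hu.le
  exact ⟨ψ, p1, fun y t ht => by rw [p2 y t (by linarith), s2 t ht], σ, s1, s3, s2, p2, p3⟩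

end tiso

/-- the positive diffeomorphism of a move -/
def Mv.dif {W : W4} {S : Set W.M} {ψ : W.M ≃ₘ^∞⟮W.X.P.I, W.X.P.I⟯ W.M} (h : Mv W.X.P.I S ψ) : W4.Dif W W :=
  ⟨ψ, h.pos _ W.ori⟩

end Crest.Agent.X212.Rob53
end
end

-- ▼ part X212/Rob53/Ag

/-!
# X212 / Rob53, part Ag (helper53): moves along the ends of a piece

* `mv_nc`, `ec_out`, `ec_in` : changes of the neck coordinate;
* `agStmt : Geo28.AgStmt`,  `pinStmt : Geo28.PinStmt`.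
-/

set_option autoImplicit false
set_option linter.unusedSectionVars false

open Set Filter Topology Function Metric Module
open scoped ContDiff Manifold
open Crest.Agent.R208 Crest.Agent.R208.FI
open Crest.Agent.R208.F hiding wd
open Crest.Agent.X212.Orx52 Crest.Agent.X212.Dr59
open Crest.Agent.X212.Bor5.T (O3 Pb Cur)
open Crest.Agent.X212.Geo28

noncomputable section

namespace Crest.Agent.X212.Rob53

/-! ### forms -/

section frm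

variable {X X' : M4} {S : Set X.M} {ψ : X.M ≃ₘ^∞⟮X.I, X.I⟯ X.M} {c e η : X.Fm} {d : X.L}

theorem ip_m4 (φ : M4.Dif X X') (c e : X'.Fm) :
    X.ip (pm X.I X'.I φ.φ c) (pm X.I X'.I φ.φ e) = X'.ip c e :=
  (Int54.integ_eq_of_map (f := φ.φ) (s := univ) (a := c * e) (X'.X.dim.trans X.X.dim.symm) X'.ori X.ori .univ
    (fun w _ => φ.φ.contMDiff w) φ.φ.injective.injOn (fun x hx => (φ.pos x hx).trans_eq (mul_comm _ _))
    (fun x hx => absurd ⟨_, trivial, φ.φ.apply_symm_apply x⟩ hx)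
    (fun _ hx => absurd trivial hx) fun _ _ => by rw [pm_mul]).symm

theorem cs_m4 (φ : X.M ≃ₘ^∞⟮X.I, X'.I⟯ X'.M) {k : ℕ} {K : Set X'.M} {e : X'.Fm} (h : Cs X'.I k K e) :
    Cs X.I k (φ ⁻¹' K) (pm X.I X'.I φ e) :=
  have z : ∀ x, x ∉ φ ⁻¹' tsupport e → pm X.I X'.I φ e x = 0 := fun x hx => by
    rw [pm_apply, show e (φ x) = 0 from image_eq_zero_of_notMem_tsupport hx, map_zero]
  ⟨h.cl.pm (Mp.of_contMDiff φ.contMDiff (mapsTo_univ _ _)),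
    .intro (φ.toHomeomorph.isCompact_preimage.2 h.hc.isCompact) z,
    (closure_minimal (s := support _) (fun x hx => by_contra fun k => hx (z x k))
      ((isClosed_tsupport e).preimage φ.continuous)).trans (preimage_mono h.sub)⟩

theorem ps_m4 (φ : M4.Dif X X') {d' : X'.L} {η : X'.Fm} (hd : Pb φ.φ univ d' d) (h : X'.Ps d' η) :
    X.Ps d (pm X.I X'.I φ.φ η) :=
  let ⟨_, a, b, k⟩ := h
  ⟨_, cs_m4 φ.φ a, Nvg56.cur_dif hd b, by rwa [← pm_sub, ip_m4]⟩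

/-- the positive diffeomorphism of a move -/
def Mv.m4 (h : Mv X.I S ψ) : M4.Dif X X := ⟨ψ, h.pos _ X.ori⟩

theorem Mv.pm_fix (h : Mv X.I S ψ) (hS : IsClosed S) (hz : ∀ x ∈ S, η x = 0) : pm X.I X.I ψ η = η :=
  funext fun x => (em (x ∈ S)).elim (fun k => by rw [pm_apply, hz _ (h.maps subset_rfl k), hz x k, map_zero])
    fun k => pm_of_eventually_id (eventually_of_mem (hS.isOpen_compl.mem_nhds k) h.off) η

theorem Mv.ip_cl (h : Mv X.I S ψ) {k l : ℕ} (hc : Cl X.I (k + 1) univ c) (he : Cs X.I l univ e) :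
    X.ip c (pm X.I X.I ψ e) = X.ip c e :=
  let ⟨b, b1, _, _, b4⟩ := h.frm k c hc
  ((cs_m4 ψ he).ip_coh X.ori (cl_dif ψ hc).sm hc.sm ⟨b, b1, fun y _ => b4 y⟩).symm.trans (ip_m4 h.m4 c e)

end frm

/-! ### necks -/

section nc

variable {A : O3} {X X' : M4} {J T T' : Set ℝ} {a : Option O3} {a₀ r : ℝ} {l : Filter ℝ}

theorem nc_src (k : Nc A X J) : k.k.source = Prod.snd ⁻¹' J := k.src.trans univ_prod

theorem nc_tm (k : Nc A X J) (y : A.Y.M) {t : ℝ} (ht : t ∈ J) : k.tm (k.k (y, t)) = t :=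
  k.tmk (y, t) ((nc_src k).ge ht)

theorem nc_mem (k : Nc A X J) (y : A.Y.M) {t : ℝ} (ht : t ∈ J) : k.tm (k.k (y, t)) ∈ J := by rwa [nc_tm k y ht]

theorem nc_surj (k : Nc A X J) {x : X.M} (h : k.tm x ∈ J) : ∃ y, k.k (y, k.tm x) = x :=
  have j : x ∈ k.k.target := k.tgt.ge h
  ⟨(k.k.symm x).1, (congrArg (fun t => k.k ((k.k.symm x).1, t)) ((congrArg k.tm (k.k.right_inv j)).symm.trans
    (k.tmk _ (k.k.map_target j)))).trans (k.k.right_inv j)⟩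

theorem img_nc (k : Nc A X J) (h : T ⊆ J) : k.k '' (Prod.snd ⁻¹' T) = k.tm ⁻¹' T := by
  refine Subset.antisymm ?_ fun x hx => ?_
  · rintro _ ⟨z, hz, rfl⟩
    exact show k.tm (k.k z) ∈ T from (nc_tm k z.1 (h hz)).symm ▸ hz
  · exact let ⟨y, e⟩ := nc_surj k (h hx); ⟨_, hx, e⟩

theorem mv_nc (k : Nc A X J) (hJ : OrdConnected J) (hT : T ⊆ J) (cT : IsClosed T) (hT' : T' ⊆ J)
    (cT' : IsClosed T') {p : ℝ} (hp : p ∈ J) {ρ : ℝ → ℝ} (cρ : Continuous ρ) (h1 : ∀ u ∈ J, ρ u ∈ J ∧ ρ u ∉ T)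
    (h2 : ∀ u, u ∉ T' → ρ u = u) (σ : ℝ ≃ₘ^∞⟮𝓘(ℝ, ℝ), 𝓘(ℝ, ℝ)⟯ ℝ) (h : ∀ u, u ∉ T → σ u = u) :
    ∃ ψ, Mv X.I (k.tm ⁻¹' T) ψ ∧ (∀ y, ∀ t ∈ J, ψ (k.k (y, t)) = k.k (y, σ t)) ∧
      ∀ x, k.tm (ψ x) = σ (k.tm x) := by
  have := Manifold.locallyCompact_of_finiteDimensional (M := X.M) X.I
  obtain ⟨ψ, h3, h4⟩ := mv_col (φ := k.k) (nc_src k) hJ hT (img_nc k hT ▸ cT.preimage k.cont) (h1 p hp).1 (h1 p hp).2
    (dfm_col (nc_src k) hJ cρ h1 h2 hT hT' (img_nc k hT' ▸ cT'.preimage k.cont)) σ h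
  replace h3 := h3.mono (img_nc k hT).le
  refine ⟨ψ, h3, h4, fun x => ?_⟩
  by_cases e : k.tm x ∈ T
  · obtain ⟨y, j⟩ := nc_surj k (hT e)
    exact (congrArg k.tm ((congrArg ψ j).symm.trans (h4 y _ (hT e)))).trans (nc_tm k y
      ((em (σ (k.tm x) ∈ T)).elim (hT ·) fun l => (σ.injective (h _ l)).symm ▸ hT e))
  · rw [h3.off x e, h _ e]

/-- `ψ` is the change `σ` of the neck coordinate -/
def Sh (ψ : X.M → X.M) (σ : ℝ → ℝ) : ∀ {a : Option O3}, Ec a X J → Prop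
  | none, _ => True
  | some _, k => ∀ y, ∀ t ∈ J, ψ (Nc.k k (y, t)) = Nc.k k (y, σ t)

theorem ec_cont : ∀ {a : Option O3} (k : Ec a X J), Continuous k.tm
  | none, _ => continuous_const
  | some _, k => Nc.cont k

/-- an outgoing end -/
theorem ec_out (k : Ec a X (Ioi 0)) (h0 : 0 < a₀) (σ : ℝ ≃ₘ^∞⟮𝓘(ℝ, ℝ), 𝓘(ℝ, ℝ)⟯ ℝ) (h : ∀ u < a₀, σ u = u) :
    ∃ ψ, Mv X.I (k.tm ⁻¹' Ici a₀) ψ ∧ Sh ψ σ k ∧ ∀ x, k.tm (ψ x) = σ (k.tm x) := by
  cases a with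
  | none => exact ⟨_, .refl _, trivial, fun _ => (h 0 h0).symm⟩
  | some A =>
    obtain ⟨c, c1, c2⟩ := exists_between h0
    exact mv_nc (A := A) k ordConnected_Ioi (Ici_subset_Ioi.2 h0) isClosed_Ici (Ici_subset_Ioi.2 c1) isClosed_Ici h0
      (ρ := (min · c)) (by fun_prop)
      (fun _ hu => ⟨lt_min hu c1, fun e => ((min_le_right _ _).trans_lt c2).not_ge e⟩)
      (fun _ hu => min_eq_left (not_le.1 hu).le) σ fun u hu => h u (not_le.1 hu)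

/-- an incoming end -/
theorem ec_in (k : Ec a X (Iio 0)) (h0 : a₀ < 0) (σ : ℝ ≃ₘ^∞⟮𝓘(ℝ, ℝ), 𝓘(ℝ, ℝ)⟯ ℝ) (h : ∀ u, a₀ < u → σ u = u) :
    ∃ ψ, Mv X.I (k.tm ⁻¹' Iic a₀) ψ ∧ Sh ψ σ k ∧ ∀ x, k.tm (ψ x) = σ (k.tm x) := by
  cases a with
  | none => exact ⟨_, .refl _, trivial, fun _ => (h 0 h0).symm⟩
  | some A =>
    obtain ⟨c, c1, c2⟩ := exists_between h0
    exact mv_nc (A := A) k ordConnected_Iio (Iic_subset_Iio.2 h0) isClosed_Iic (Iic_subset_Iio.2 c2) isClosed_Iic h0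
      (ρ := (max · c)) (by fun_prop)
      (fun _ hu => ⟨max_lt hu c2, fun e => (c1.trans_le (le_max_right _ _)).not_ge e⟩)
      (fun _ hu => max_eq_left (not_le.1 hu).le) σ fun u hu => h u (not_le.1 hu)

/-- translation of an outgoing end -/
theorem sh_out (k : Ec a X (Ioi 0)) {D : ℝ} (hD : 0 ≤ D) : ∃ ψ σ, Mv X.I (k.tm ⁻¹' Ici (1 / 4)) ψ ∧ Sh ψ σ k ∧
    (∀ x, k.tm (ψ x) = σ (k.tm x)) ∧ ∀ u, 1 / 2 ≤ u → σ u = u + D := by
  obtain ⟨σ, -, s2, s3⟩ := Cyl58.exists_diffeo_shift (a := 1 / 4) (b := 1 / 2) (c := 0) (d := D) (by norm_num)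
    (by linarith)
  obtain ⟨ψ, p1, p2, p3⟩ := ec_out k (a₀ := 1 / 4) (by norm_num) σ fun u hu => (s2 u hu.le).trans (add_zero u)
  exact ⟨ψ, σ, p1, p2, p3, s3⟩

/-- translation of an incoming end -/
theorem sh_in (k : Ec a X (Iio 0)) {D : ℝ} (hD : D ≤ 0) : ∃ ψ σ, Mv X.I (k.tm ⁻¹' Iic (-(1 / 4))) ψ ∧ Sh ψ σ k ∧
    (∀ x, k.tm (ψ x) = σ (k.tm x)) ∧ ∀ u, u ≤ -(1 / 2) → σ u = u + D := by
  obtain ⟨σ, -, s2, s3⟩ := Cyl58.exists_diffeo_shift (a := -(1 / 2)) (b := -(1 / 4)) (c := D) (d := 0)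
    (by norm_num) (by linarith)
  obtain ⟨ψ, p1, p2, p3⟩ := ec_in k (a₀ := -(1 / 4)) (by norm_num) σ fun u hu => (s3 u hu.le).trans (add_zero u)
  exact ⟨ψ, σ, p1, p2, p3, s2⟩

variable {k : Ec a X J} {k' : Ec a X' J} {f : X.M → X'.M} {χ : X.M → X.M} {χ' : X'.M → X'.M}

theorem mt_fix (h : Ec.Mt r f k k') (e : ∀ p, k.tm p ∈ J → χ p = p) (e' : ∀ p, k'.tm p ∈ J → χ' p = p) :
    Ec.Mt r (χ' ∘ f ∘ χ) k k' := by
  cases a with
  | none => trivial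
  | some A =>
    intro y t ht j
    exact (congrArg (χ' ∘ f) (e _ (nc_mem (A := A) k y ht))).trans ((congrArg χ' (h y t ht j)).trans
      (e' _ (nc_mem (A := A) k' y ht)))

theorem ag_fix (hl : Rfl19.Nd l) (hJ : ∀ᶠ t in l, t ∈ J) (h : Ec.Ag l f k k') (e : ∀ p, k.tm p ∈ J → χ p = p)
    (e' : ∀ p, k'.tm p ∈ J → χ' p = p) : Ec.Ag l (χ' ∘ f ∘ χ) k k' := by
  cases a with
  | none => trivial
  | some A =>
    obtain ⟨δ, h⟩ := h
    refine ⟨δ, ?_⟩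
    filter_upwards [h, hJ, (hl δ).eventually hJ] with t h1 h2 h3 y
    exact (congrArg (χ' ∘ f) (e _ (nc_mem (A := A) k y h2))).trans ((congrArg χ' (h1 y)).trans
      (e' _ (nc_mem (A := A) k' y h3)))

theorem ag_out {k : Ec a X (Ioi 0)} {k' : Ec a X' (Ioi 0)} (h : Ec.Ag atTop f k k') :
    ∃ χ χ', Mv X.I (k.tm ⁻¹' Ici (1 / 4)) χ ∧ Mv X'.I (k'.tm ⁻¹' Ici (1 / 4)) χ' ∧
      Ec.Mt (1 / 2) (χ' ∘ f ∘ χ) k k' := by
  cases a with
  | none => exact ⟨_, _, .refl _, .refl _, trivial⟩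
  | some A =>
    obtain ⟨δ, h⟩ := h
    obtain ⟨B, hB⟩ := eventually_atTop.1 h
    obtain ⟨χ, σ, p1, p2, -, p4⟩ := sh_out k (D := |B| + |δ|) (by positivity)
    obtain ⟨χ', σ', q1, q2, -, q4⟩ := sh_out k' (D := |B| + |δ| + δ) (by linarith [abs_nonneg B, neg_abs_le δ])
    refine ⟨χ, χ'.symm, p1, q1.symm, fun y t ht j => χ'.injective ((χ'.apply_symm_apply _).trans ?_)⟩
    rw [abs_of_pos ht] at j
    refine (congrArg f (p2 y t ht)).trans (Eq.trans ?_ (q2 y t ht).symm)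
    rw [p4 t j.le, q4 t j.le, ← add_assoc t _ δ]
    exact hB _ (by linarith [le_abs_self B, abs_nonneg δ]) y

theorem ag_in {k : Ec a X (Iio 0)} {k' : Ec a X' (Iio 0)} (h : Ec.Ag atBot f k k') :
    ∃ χ χ', Mv X.I (k.tm ⁻¹' Iic (-(1 / 4))) χ ∧ Mv X'.I (k'.tm ⁻¹' Iic (-(1 / 4))) χ' ∧
      Ec.Mt (1 / 2) (χ' ∘ f ∘ χ) k k' := by
  cases a with
  | none => exact ⟨_, _, .refl _, .refl _, trivial⟩
  | some A =>
    obtain ⟨δ, h⟩ := h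
    obtain ⟨B, hB⟩ := eventually_atBot.1 h
    obtain ⟨χ, σ, p1, p2, -, p4⟩ := sh_in k (D := -|B| - |δ|) (by linarith [abs_nonneg B, abs_nonneg δ])
    obtain ⟨χ', σ', q1, q2, -, q4⟩ := sh_in k' (D := -|B| - |δ| + δ) (by linarith [abs_nonneg B, le_abs_self δ])
    refine ⟨χ, χ'.symm, p1, q1.symm, fun y t ht j => χ'.injective ((χ'.apply_symm_apply _).trans ?_)⟩
    rw [abs_of_neg ht, lt_neg] at j
    refine (congrArg f (p2 y t ht)).trans (Eq.trans ?_ (q2 y t ht).symm)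
    rw [p4 t j.le, q4 t j.le, ← add_assoc t _ δ]
    exact hB _ (by linarith [neg_abs_le B, abs_nonneg δ]) y

end nc

/-! ### the leaves -/

theorem pm_three {X X' : M4} (χ : X.M ≃ₘ^∞⟮X.I, X.I⟯ X.M) (φ : X.M ≃ₘ^∞⟮X.I, X'.I⟯ X'.M)
    (χ' : X'.M ≃ₘ^∞⟮X'.I, X'.I⟯ X'.M) (η : X'.Fm) : pm X.I X'.I ((χ.trans φ).trans χ') η =
      pm X.I X.I χ (pm X.I X'.I φ (pm X'.I X'.I χ' η)) := funext fun _ =>
  (pm_comp_ld (f := χ') (g := χ.trans φ) (χ'.isLocalDiffeomorph _) (Diffeomorph.isLocalDiffeomorph _ _)).trans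
    (pm_comp_ld (f := φ) (g := χ) (φ.isLocalDiffeomorph _) (χ.isLocalDiffeomorph _))

/-- a weak isomorphism is corrected by moves off the cores -/
theorem ag_core {a b : Option O3} {T T' : Pm a b none} (φ : T.Wk T') : ∃ (ψ : T.Iso T') (S : Set T.M) (S' : Set T'.M),
    ∃ χ χ', Mv T.X.I S χ ∧ Mv T'.X.I S' χ' ∧ IsClosed S ∧ IsClosed S' ∧ (∀ x ∈ S, x ∉ T.Core) ∧
      (∀ x ∈ S', x ∉ T'.Core) ∧ ψ.φ = (χ.trans φ.φ).trans χ' := by
  obtain ⟨χ, χ', p, p', h⟩ := ag_in φ.ki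
  have i : ∀ (T : Pm a b none) {χ}, Mv T.X.I (T.ki.tm ⁻¹' Iic (-(1 / 4))) χ → ∀ x, T.ko.tm x ∈ Ioi 0 → χ x = x :=
    fun T _ p x hx => p.off x fun e => (T.io x (lt_of_le_of_lt e (by norm_num))).not_gt hx
  have j : ∀ (T : Pm a b none) {χ}, Mv T.X.I (T.ko.tm ⁻¹' Ici (1 / 4)) χ → ∀ x, T.ki.tm x ∈ Iio 0 → χ x = x :=
    fun T _ p x hx => p.off x fun e => (T.io x hx).not_gt (lt_of_lt_of_le (by norm_num) e)
  obtain ⟨κ, κ', q, q', k⟩ := ag_out (ag_fix Rfl19.nd_top (eventually_gt_atTop 0) φ.ko (i T p) (i T' p'))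
  have m := q.trans p
  have m' := p'.trans q'
  have c : ∀ (T : Pm a b none), ∀ x ∈ T.ko.tm ⁻¹' Ici (1 / 4) ∪ T.ki.tm ⁻¹' Iic (-(1 / 4)), x ∉ T.Core :=
    fun T x e hx => e.elim (fun e => hx.2.1.not_gt (lt_of_lt_of_le (by norm_num) e))
      fun e => hx.1.not_gt (lt_of_le_of_lt e (by norm_num))
  exact ⟨⟨⟨((κ.trans χ).trans φ.φ).trans (χ'.trans κ'), (m'.pos _ T'.X.ori).comp (g := (κ.trans χ).trans φ.φ)
    (φ.pos.comp (m.pos _ T.X.ori) (fun y _ => φ.φ.isLocalDiffeomorph y)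
      (fun y _ => (κ.trans χ).isLocalDiffeomorph y) (mapsTo_univ _ _))
    (fun y _ => (χ'.trans κ').isLocalDiffeomorph y) (fun y _ => Diffeomorph.isLocalDiffeomorph _ y)
    (mapsTo_univ _ _)⟩, mt_fix h (j T q) (j T' q'), k, trivial, φ.nb, fun n y =>
      (congrArg (fun x => (χ'.trans κ') (φ.φ x)) (m.off _ fun e => c T _ e (T.core n y))).trans
        ((congrArg _ (φ.bx n y)).trans (m'.off _ fun e => c T' _ e.symm (T'.core _ y)))⟩, _, _, _, _, m, m',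
    (isClosed_Ici.preimage (ec_cont _)).union (isClosed_Iic.preimage (ec_cont _)),
    (isClosed_Iic.preimage (ec_cont _)).union (isClosed_Ici.preimage (ec_cont _)), c T,
    fun x e => c T' x e.symm, rfl⟩

theorem pb_three {X X' : M4} {S : Set X.M} {S' : Set X'.M} {χ χ'} (m : Mv X.I S χ) (m' : Mv X'.I S' χ')
    {φ : X.M ≃ₘ^∞⟮X.I, X'.I⟯ X'.M} {d : X.L} {d' : X'.L} (e : Pb φ univ d' d) :
    Pb ((χ.trans φ).trans χ') univ d' d :=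
  Rfl19.pb_comp (g := χ.trans φ) (m'.cls d') (Rfl19.pb_comp (g := χ) e (m.cls d) (mapsTo_univ _ _))
    (mapsTo_univ _ _)

theorem ip_three {X X' : M4} {S : Set X.M} {S' : Set X'.M} {χ χ'} (m : Mv X.I S χ) (m' : Mv X'.I S' χ')
    (φ : M4.Dif X X') {k l : ℕ} {y : X.Fm} {η : X'.Fm} (hy : Cl X.I (k + 1) univ y) (hη : Cs X'.I l univ η) :
    X.ip y (pm X.I X'.I ((χ.trans φ.φ).trans χ') η) = X.ip y (pm X.I X'.I φ.φ η) := by
  have e : pm X.I X'.I φ.φ (pm X'.I X.I φ.φ.symm y) = y := funext fun x =>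
    pm_pm_inv (φ.φ.isLocalDiffeomorph x) (.of_forall φ.φ.symm_apply_apply) y
  rw [pm_three, m.ip_cl hy (cs_m4 φ.φ (cs_m4 χ' hη)), ← e, ip_m4, ip_m4,
    m'.ip_cl (hy.pm (Mp.of_contMDiff φ.φ.symm.contMDiff (mapsTo_univ _ _))) hη]

/-- **GEO-AG** -/
theorem agStmt : AgStmt := fun a b T T' φ => by
  obtain ⟨ψ, S, S', χ, χ', m, m', c, c', k, k', e⟩ := ag_core φ
  refine ⟨ψ, fun d d' h => e ▸ pb_three m m' h, fun d η η' z z' h s hs => ?_⟩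
  have := ps_m4 m.m4 (m.cls d) (h s hs)
  rw [pm_add, pm_smul, pm_smul, show pm _ _ m.m4.φ η = η from m.pm_fix c fun x hx => z.eq_zero (k x hx)] at this
  rwa [e, pm_three, m'.pm_fix c' fun x hx => z'.eq_zero (k' x hx)]

/-- **GEO-PIN** -/
theorem pinStmt : PinStmt := fun a b x T e he => by
  obtain ⟨B, hB⟩ := he.hc.isCompact.bddAbove_image (f := fun p => |T.ki.tm p| + |T.ko.tm p| + |T.k3.tm p|)
    (((ec_cont _).abs.add (ec_cont _).abs).add (ec_cont _).abs).continuousOn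
  obtain ⟨χ₁, σ₁, p1, -, p2, p3⟩ := sh_in T.ki (D := -|B|) (by simp)
  obtain ⟨χ₂, σ₂, q1, -, q2, q3⟩ := sh_out T.ko (abs_nonneg B)
  obtain ⟨χ₃, σ₃, r1, -, r2, r3⟩ := sh_out T.k3 (abs_nonneg B)
  have m := (r1.trans q1).trans p1
  refine ⟨_, (cs_m4 ((χ₃.trans χ₂).trans χ₁) ⟨he.cl, he.hc, subset_rfl⟩).mono fun p hp => ?_,
    let ⟨b, b1, _, _, b4⟩ := m.frm 1 e he.cl; ⟨b, b1, fun y _ => b4 y⟩, fun c hc => m.ip_cl hc he⟩
  have k : |T.ki.tm (χ₁ (χ₂ (χ₃ p)))| + |T.ko.tm (χ₁ (χ₂ (χ₃ p)))| + |T.k3.tm (χ₁ (χ₂ (χ₃ p)))| ≤ |B| :=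
    (hB ⟨_, hp, rfl⟩).trans (le_abs_self B)
  have f1 : ∀ y, 0 ≤ T.ki.tm y → χ₁ y = y := fun y h => p1.off y fun e => h.not_gt (lt_of_le_of_lt e (by norm_num))
  have f2 : ∀ y, T.ko.tm y ≤ 0 → χ₂ y = y := fun y h => q1.off y fun e => h.not_gt (lt_of_lt_of_le (by norm_num) e)
  have f3 : ∀ y, T.k3.tm y ≤ 0 → χ₃ y = y := fun y h => r1.off y fun e => h.not_gt (lt_of_lt_of_le (by norm_num) e)
  refine ⟨not_lt.1 fun h => ?_, not_lt.1 fun h => ?_, not_lt.1 fun h => ?_⟩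
  · rw [f3 p (T.i3 p (by linarith)), f2 p (T.io p (by linarith)), p2, p3 _ (by linarith)] at k
    linarith [neg_abs_le (T.ki.tm p + -|B|), abs_nonneg (T.ko.tm (χ₁ p)), abs_nonneg (T.k3.tm (χ₁ p))]
  · have j : T.ko.tm (χ₂ p) = T.ko.tm p + |B| := (q2 p).trans (q3 _ (by linarith))
    rw [f3 p (T.o3 p (by linarith)), f1 _ (not_lt.1 fun l => by linarith [T.io _ l, abs_nonneg B]), j] at k
    linarith [le_abs_self (T.ko.tm p + |B|), abs_nonneg (T.ki.tm (χ₂ p)), abs_nonneg (T.k3.tm (χ₂ p))]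
  · have j : T.k3.tm (χ₃ p) = T.k3.tm p + |B| := (r2 p).trans (r3 _ (by linarith))
    rw [f2 _ (not_lt.1 fun l => by linarith [T.o3 _ l, abs_nonneg B]),
      f1 _ (not_lt.1 fun l => by linarith [T.i3 _ l, abs_nonneg B]), j] at k
    linarith [le_abs_self (T.k3.tm p + |B|), abs_nonneg (T.ki.tm (χ₃ p)), abs_nonneg (T.ko.tm (χ₃ p))]

end Crest.Agent.X212.Rob53
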